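import Vale.Agent.P207Z.Char.Defs

/-!
# P207: the scalar functional of Lagrange and Buermann
-/

set_option linter.all false

open Set Filter Topology Metric
open scoped ContDiff

noncomputable section

namespace Vale.Agent.P207Z.Evo

open Lift

variable {E : Type} [NormedAddCommGroup E] [NormedSpace ℝ E] {x e : E} {u v : E → ℝ} {A : ℝ}

theorem sm_clm {F G : Type} [NormedAddCommGroup F] [NormedSpace ℝ F] [NormedAddCommGroup G]
    [NormedSpace ℝ G] (L : F →L[ℝ] G) {f : E → F} (h : ContDiffAt ℝ ∞ f x) :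
    ContDiffAt ℝ ∞ (fun y => L (f y)) x := L.contDiff.contDiffAt.comp x h

theorem sm_dd (h : ContDiffAt ℝ ∞ u x) : ContDiffAt ℝ ∞ (dd e u) x :=
  (h.fderiv_right (m := ∞) le_rfl).clm_apply contDiffAt_const

theorem sm_it (i : ℕ) : ∀ {u : E → ℝ}, ContDiffAt ℝ ∞ u x → ContDiffAt ℝ ∞ ((dd e)^[i] u) x := by
  induction i with
  | zero => exact id
  | succ i ih => exact fun h => ih (sm_dd h)

theorem dd_congr (h : u =ᶠ[𝓝 x] v) : dd e u =ᶠ[𝓝 x] dd e v :=
  (h.fderiv (𝕜 := ℝ)).mono fun _ hy => congrArg (fun L : E →L[ℝ] ℝ => L e) hy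

theorem it_congr (i : ℕ) : ∀ {u v : E → ℝ}, u =ᶠ[𝓝 x] v → (dd e)^[i] u =ᶠ[𝓝 x] (dd e)^[i] v := by
  induction i with
  | zero => exact id
  | succ i ih => exact fun h => ih (dd_congr h)

theorem ev_diff (h : ContDiffAt ℝ ∞ u x) : ∀ᶠ y in 𝓝 x, DifferentiableAt ℝ u y :=
  ((cda h 1).eventually (by simp)).mono fun _ hy => hy.differentiableAt (by simp)

theorem dd_add (hu : ContDiffAt ℝ ∞ u x) (hv : ContDiffAt ℝ ∞ v x) :
    dd e (fun y => u y + v y) =ᶠ[𝓝 x] fun y => dd e u y + dd e v y := by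
  filter_upwards [ev_diff hu, ev_diff hv] with y a b
  simp only [dd, fderiv_fun_add a b, ContinuousLinearMap.add_apply]

theorem it_add (i : ℕ) : ∀ {u v : E → ℝ}, ContDiffAt ℝ ∞ u x → ContDiffAt ℝ ∞ v x →
    (dd e)^[i] (fun y => u y + v y) =ᶠ[𝓝 x] fun y => (dd e)^[i] u y + (dd e)^[i] v y := by
  induction i with
  | zero => exact fun _ _ => EventuallyEq.rfl
  | succ i ih => exact fun hu hv => (it_congr i (dd_add hu hv)).trans (ih (sm_dd hu) (sm_dd hv))

theorem dd_smul (c : ℝ) : dd e (fun y => c * u y) = fun y => c * dd e u y :=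
  funext fun y => congrArg (fun L : E → E →L[ℝ] ℝ => L y e) (fderiv_const_smul_field (f := u) c)

theorem it_smul (c : ℝ) (i : ℕ) : ∀ u : E → ℝ,
    (dd e)^[i] (fun y => c * u y) = fun y => c * (dd e)^[i] u y := by
  induction i with
  | zero => exact fun _ => rfl
  | succ i ih => exact fun u => by rw [Function.iterate_succ_apply, dd_smul, ih]; rfl

theorem sm_lin (l : E →L[ℝ] ℝ) (w : E) : ContDiffAt ℝ ∞ (fun y => l (y - w)) x :=
  sm_clm l (contDiffAt_id.sub contDiffAt_const)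

theorem dd_mul (l : E →L[ℝ] ℝ) (w : E) (hu : ContDiffAt ℝ ∞ u x) :
    dd e (fun y => l (y - w) * u y) =ᶠ[𝓝 x] fun y => l (y - w) * dd e u y + l e * u y := by
  filter_upwards [ev_diff hu] with y a
  have h1 : HasFDerivAt (fun y => l (y - w)) l y :=
    l.hasFDerivAt.comp y ((hasFDerivAt_id y).sub_const w)
  rw [dd, (h1.fun_mul a.hasFDerivAt).fderiv]
  simp only [ContinuousLinearMap.add_apply, ContinuousLinearMap.smul_apply, smul_eq_mul, dd]
  ring

theorem it_mul (l : E →L[ℝ] ℝ) (w : E) (i : ℕ) : ∀ {u : E → ℝ}, ContDiffAt ℝ ∞ u x →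
    (dd e)^[i + 1] (fun y => l (y - w) * u y) =ᶠ[𝓝 x]
      fun y => l (y - w) * (dd e)^[i + 1] u y + (i + 1) * l e * (dd e)^[i] u y := by
  induction i with
  | zero => exact fun hu => (dd_mul l w hu).mono fun y hy => hy.trans (by simp)
  | succ i ih =>
    intro u hu
    refine (it_congr (i + 1) (dd_mul l w hu)).trans ((it_add (i + 1)
      ((sm_lin l w).mul (sm_dd hu)) (contDiffAt_const.mul hu)).trans ?_)
    filter_upwards [ih (sm_dd (e := e) hu)] with y hy
    rw [hy, it_smul, ← Function.iterate_succ_apply, ← Function.iterate_succ_apply]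
    push_cast
    ring

theorem it_mul₀ (l : E →L[ℝ] ℝ) (w : E) (h : l e = 0) (i : ℕ) (hu : ContDiffAt ℝ ∞ u x) :
    (dd e)^[i] (fun y => l (y - w) * u y) =ᶠ[𝓝 x] fun y => l (y - w) * (dd e)^[i] u y := by
  cases i with
  | zero => exact EventuallyEq.rfl
  | succ i => exact (it_mul l w i hu).mono fun y hy => hy.trans (by rw [h]; ring)

theorem pb_it (j i : ℕ) : ∀ {u : E → ℝ} {A : ℝ}, Pb (j + i) u x A →
    Pb j ((dd e)^[i] u) x (‖e‖ ^ i * A) := by
  induction i with
  | zero => exact fun h => h.le (by simp)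
  | succ i ih =>
    intro u A h
    have h1 := (Pb.fderiv (j := j + i) h).clm (ContinuousLinearMap.apply ℝ ℝ e)
    refine (ih (u := dd e u) h1).le ?_
    have h2 : ‖ContinuousLinearMap.apply ℝ ℝ e‖ ≤ ‖e‖ :=
      ContinuousLinearMap.opNorm_le_bound _ (norm_nonneg _) fun L =>
        (L.le_opNorm e).trans_eq (mul_comm _ _)
    rw [pow_succ, mul_assoc]
    exact mul_le_mul_of_nonneg_left (mul_le_mul_of_nonneg_right h2 h.nonneg) (by positivity)

theorem pb_it_sub {j i : ℕ} (h : Pb (j + i) (fun y => u y - v y) x A) (hv : ContDiffAt ℝ ∞ v x) :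
    Pb j (fun y => (dd e)^[i] u y - (dd e)^[i] v y) x (‖e‖ ^ i * A) := by
  refine (pb_it (e := e) j i h).congr ?_
  have h1 := it_add (e := e) i h.sm hv
  simp only [sub_add_cancel] at h1
  exact h1.mono fun y hy => by
    change (dd e)^[i] (fun y => u y) y - _ = _
    rw [hy, add_sub_cancel_right]

variable [FiniteDimensional ℝ E] {m : ℕ} (b : Module.Basis (Fin m) ℝ E)

/-- the coordinates -/
def co (β : Fin m) : E →L[ℝ] ℝ := LinearMap.toContinuousLinearMap (b.coord β)

theorem co_apply (β : Fin m) (y : E) : co b β y = b.repr y β := rfl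

/-- the coefficients -/
def cf (φ : E → E) (β : Fin m) (i : ℕ) (G : E → ℝ) (y : E) : ℝ :=
  co b β (φ y) ^ i / (i.factorial : ℝ) * G y

/-- the scalar functional -/
def DS (φ : E → E) (K' : ℕ) : List (Fin m) → (E → ℝ) → E → ℝ
  | [], G => G
  | β :: bs, G => fun y => ∑ i ∈ Finset.range K', (dd (b β))^[i] (DS φ K' bs (cf b φ β i G)) y

variable {b} {φ : E → E} {K' K : ℕ}

theorem sm_cf (hφ : ContDiffAt ℝ ∞ φ x) (hu : ContDiffAt ℝ ∞ u x) (β : Fin m) (i : ℕ) :
    ContDiffAt ℝ ∞ (cf b φ β i u) x :=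
  (((sm_clm (co b β) hφ).pow i).div_const _).mul hu

theorem sm_DS (hφ : ContDiffAt ℝ ∞ φ x) (bs : List (Fin m)) : ∀ {u : E → ℝ},
    ContDiffAt ℝ ∞ u x → ContDiffAt ℝ ∞ (DS b φ K' bs u) x := by
  induction bs with
  | nil => exact id
  | cons β bs ih => exact fun hu => ContDiffAt.sum fun i _ => sm_it i (ih (sm_cf hφ hu β i))

theorem ev_sum {f g : ℕ → E → ℝ} {s : Finset ℕ} (h : ∀ i, f i =ᶠ[𝓝 x] g i) :
    ∀ᶠ y in 𝓝 x, ∑ i ∈ s, f i y = ∑ i ∈ s, g i y :=
  ((eventually_all_finset s).2 fun i _ => h i).mono fun _ hy => Finset.sum_congr rfl hy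

theorem DS_add (hφ : ContDiffAt ℝ ∞ φ x) (bs : List (Fin m)) : ∀ {u v : E → ℝ},
    ContDiffAt ℝ ∞ u x → ContDiffAt ℝ ∞ v x →
    DS b φ K' bs (fun y => u y + v y) =ᶠ[𝓝 x] fun y => DS b φ K' bs u y + DS b φ K' bs v y := by
  induction bs with
  | nil => exact fun _ _ => EventuallyEq.rfl
  | cons β bs ih =>
    intro u v hu hv
    refine (ev_sum fun i => ?_).mono fun y hy => hy.trans Finset.sum_add_distrib
    have e1 : cf b φ β i (fun y => u y + v y) = fun y => cf b φ β i u y + cf b φ β i v y :=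
      funext fun y => mul_add _ _ _
    rw [e1]
    exact (it_congr i (ih (sm_cf hφ hu β i) (sm_cf hφ hv β i))).trans
      (it_add i (sm_DS hφ bs (sm_cf hφ hu β i)) (sm_DS hφ bs (sm_cf hφ hv β i)))

theorem DS_smul (c : ℝ) (bs : List (Fin m)) : ∀ u : E → ℝ,
    DS b φ K' bs (fun y => c * u y) = fun y => c * DS b φ K' bs u y := by
  induction bs with
  | nil => exact fun _ => rfl
  | cons β bs ih =>
    intro u
    funext y
    have e1 : ∀ i, cf b φ β i (fun y => c * u y) = fun y => c * cf b φ β i u y :=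
      fun i => funext fun y => mul_left_comm _ _ _
    simp only [DS, e1, ih, it_smul, Finset.mul_sum]

theorem DS_sum (hφ : ContDiffAt ℝ ∞ φ x) (bs : List (Fin m)) {ι : Type} (s : Finset ι)
    {G : ι → E → ℝ} (h : ∀ a, ContDiffAt ℝ ∞ (G a) x) :
    DS b φ K' bs (fun y => ∑ a ∈ s, G a y) x = ∑ a ∈ s, DS b φ K' bs (G a) x := by
  classical
  induction s using Finset.induction_on with
  | empty => simpa using congrFun (DS_smul (b := b) (φ := φ) (K' := K') 0 bs fun _ => 0) x
  | insert a s ha ih =>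
    simp only [Finset.sum_insert ha]
    exact (DS_add hφ bs (h a) (ContDiffAt.sum fun a _ => h a)).self_of_nhds.trans
      (congrArg _ ih)

theorem pb_cf (b : Module.Basis (Fin m) ℝ E) (β : Fin m) (r i : ℕ) : ∃ C : ℝ, 0 ≤ C ∧
    ∀ (φ : E → E) (G : E → ℝ) (x : E) (η A : ℝ), Pb r φ x η → Pb r G x A →
      Pb r (cf b φ β i G) x (C * η ^ i * A) := by
  induction i with
  | zero => exact ⟨1, zero_le_one, fun φ G x η A _ h => (h.congr
      (Eventually.of_forall fun y => by simp [cf])).le (by simp)⟩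
  | succ i ih =>
    obtain ⟨C, hC, h⟩ := ih
    refine ⟨|((i : ℝ) + 1)⁻¹| * (2 ^ r * (‖co b β‖ * C)), by positivity, fun φ G x η A h1 h2 =>
      ((((h1.clm (co b β)).mul (h φ G x η A h1 h2)).smul ((i : ℝ) + 1)⁻¹).congr
        (Eventually.of_forall fun y => ?_)).le (le_of_eq (by ring))⟩
    have : ((i : ℝ) + 1) ≠ 0 := by positivity
    have : (i.factorial : ℝ) ≠ 0 := by positivity
    simp only [cf, smul_eq_mul, Nat.factorial_succ]
    push_cast
    field_simp
    ring

theorem pb_DS (b : Module.Basis (Fin m) ℝ E) (K r : ℕ) (bs : List (Fin m)) :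
    ∀ j, j + bs.length * K ≤ r → ∃ C : ℝ, 0 ≤ C ∧ ∀ (φ : E → E) (G : E → ℝ) (x : E) (A : ℝ),
      Pb r φ x 1 → Pb r G x A → Pb j (DS b φ (K + 1) bs G) x (C * A) := by
  induction bs with
  | nil => exact fun j hj => ⟨1, zero_le_one, fun φ G x A _ h => h.mono (by simpa using hj) (by simp)⟩
  | cons β bs ih =>
    intro j hj
    obtain ⟨C, hC, h⟩ := ih (j + K) (by rw [List.length_cons] at hj; linarith)
    choose C₁ hC₁ h₁ using pb_cf b β r
    refine ⟨∑ i ∈ Finset.range (K + 1), ‖b β‖ ^ i * (C * C₁ i),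
      Finset.sum_nonneg fun i _ => by have := hC₁ i; positivity, fun φ G x A h1 h2 =>
      (Pb.sum _ fun i hi => pb_it j i ((h φ _ x _ h1 (h₁ i φ G x 1 A h1 h2)).mono
        (by have := Finset.mem_range.1 hi; omega) le_rfl)).le (le_of_eq ?_)⟩
    rw [Finset.sum_mul]
    exact Finset.sum_congr rfl fun i _ => by ring

theorem cf_mul (c : E → ℝ) (β : Fin m) (i : ℕ) (G : E → ℝ) :
    cf b φ β i (fun y => c y * G y) = fun y => c y * cf b φ β i G y :=
  funext fun y => mul_left_comm _ _ _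

theorem co_ne {β γ : Fin m} (h : β ≠ γ) : co b γ (b β) = 0 := by
  simp [co_apply, h]

theorem DS_mul (hφ : ContDiffAt ℝ ∞ φ x) (γ : Fin m) (w : E) (bs : List (Fin m)) :
    γ ∉ bs → ∀ {u : E → ℝ}, ContDiffAt ℝ ∞ u x →
      DS b φ K' bs (fun y => co b γ (y - w) * u y) =ᶠ[𝓝 x]
        fun y => co b γ (y - w) * DS b φ K' bs u y := by
  induction bs with
  | nil => exact fun _ _ _ => EventuallyEq.rfl
  | cons β bs ih =>
    intro hγ u hu
    refine (ev_sum fun i => ?_).mono fun y hy => hy.trans (Finset.mul_sum _ _ _).symm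
    rw [cf_mul]
    exact (it_congr i (ih (List.not_mem_of_not_mem_cons hγ) (sm_cf hφ hu β i))).trans
      (it_mul₀ _ w (co_ne (List.ne_of_not_mem_cons hγ).symm) i (sm_DS hφ bs (sm_cf hφ hu β i)))

/-- the identity of Lagrange and Buermann in one variable -/
theorem DS_key (hφ : ContDiffAt ℝ ∞ φ x) (γ : Fin m) (w : E) {bs : List (Fin m)} (hγ : γ ∉ bs)
    (hu : ContDiffAt ℝ ∞ u x) :
    (fun y => DS b φ (K + 1) (γ :: bs) (fun y => co b γ (y - w) * u y) y
      - (co b γ (y - w) * DS b φ (K + 1) (γ :: bs) u y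
        + DS b φ (K + 1) (γ :: bs) (fun y => co b γ (φ y) * u y) y)) =ᶠ[𝓝 x]
      fun y => -((K + 1) * (dd (b γ))^[K] (DS b φ (K + 1) bs (cf b φ γ (K + 1) u)) y) := by
  have e1 : ∀ i : ℕ, cf b φ γ i (fun y => co b γ (φ y) * u y)
      = fun y => ((i : ℝ) + 1) * cf b φ γ (i + 1) u y := fun i => funext fun y => by
    have : ((i : ℝ) + 1) ≠ 0 := by positivity
    have : (i.factorial : ℝ) ≠ 0 := by positivity
    simp only [cf, Nat.factorial_succ]
    push_cast
    field_simp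
    ring
  have h1 := fun i => DS_mul (b := b) (K' := K + 1) hφ γ w bs hγ (sm_cf (b := b) hφ hu γ i)
  have h2 := ev_sum (s := Finset.range K) fun i => (it_congr (e := b γ) (i + 1) (h1 (i + 1))).trans
    (it_mul _ w i (sm_DS hφ bs (sm_cf hφ hu γ (i + 1))))
  filter_upwards [h2, h1 0] with y a c
  have e2 : co b γ (b γ) = 1 := by simp [co_apply]
  simp only [DS, cf_mul (fun y => co b γ (y - w)), e1, DS_smul, it_smul]
  rw [Finset.sum_range_succ', a, Finset.sum_range_succ' _ K, Finset.sum_range_succ,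
    Finset.sum_add_distrib, ← Finset.mul_sum, e2]
  simp only [Function.iterate_zero, id, c, mul_one]
  ring

/-- the functional kills the ideal of the fixed point, up to a small error -/
theorem pb_key (b : Module.Basis (Fin m) ℝ E) (K r : ℕ) (γ : Fin m) (bs : List (Fin m)) :
    bs.Nodup → γ ∈ bs → ∀ j, j + bs.length * K ≤ r → ∃ C : ℝ, 0 ≤ C ∧
      ∀ (φ : E → E) (G : E → ℝ) (x w : E) (η A : ℝ), η ≤ 1 → Pb r φ x η → Pb r G x A →
        Pb j (fun y => DS b φ (K + 1) bs (fun y => co b γ (y - w) * G y) y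
          - (co b γ (y - w) * DS b φ (K + 1) bs G y
            + DS b φ (K + 1) bs (fun y => co b γ (φ y) * G y) y)) x (C * η ^ (K + 1) * A) := by
  induction bs with
  | nil => exact fun _ h => absurd h List.not_mem_nil
  | cons β bs ih =>
    intro hn hγ j hj
    have hj' : j + K + bs.length * K ≤ r := by rw [List.length_cons] at hj; linarith
    by_cases hβ : β = γ
    · subst hβ
      obtain ⟨C, hC, h⟩ := pb_DS b K r bs (j + K) hj'
      obtain ⟨C₁, hC₁, h₁⟩ := pb_cf b β r (K + 1)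
      refine ⟨|-((K : ℝ) + 1)| * (‖b β‖ ^ K * (C * C₁)), by positivity,
        fun φ G x w η A hη h1 h2 => (((pb_it (e := b β) j K (h φ _ x _ (h1.le hη)
          (h₁ φ G x η A h1 h2))).smul (-((K : ℝ) + 1))).congr ?_).le (le_of_eq (by ring))⟩
      exact (DS_key h1.sm β w (List.nodup_cons.1 hn).1 h2.sm).mono fun y hy =>
        hy.trans (neg_mul _ _).symm
    · obtain ⟨C, hC, h⟩ := ih (List.nodup_cons.1 hn).2
        ((List.mem_cons.1 hγ).resolve_left (Ne.symm hβ)) (j + K) hj'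
      choose C₁ hC₁ h₁ using pb_cf b β r
      refine ⟨∑ i ∈ Finset.range (K + 1), ‖b β‖ ^ i * (C * C₁ i),
        Finset.sum_nonneg fun i _ => by have := hC₁ i; positivity, fun φ G x w η A hη h1 h2 => ?_⟩
      have s1 := fun i => sm_DS (b := b) (K' := K + 1) h1.sm bs (sm_cf (b := b) h1.sm h2.sm β i)
      have s2 := fun i => sm_DS (b := b) (K' := K + 1) h1.sm bs
        ((sm_clm (co b γ) h1.sm).mul (sm_cf (b := b) h1.sm h2.sm β i))
      have h3 := Pb.sum (Finset.range (K + 1)) fun i hi => pb_it_sub (e := b β) (j := j) (i := i)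
        ((h φ _ x w η _ hη h1 (h₁ i φ G x 1 A (h1.le hη) h2)).mono
          (by have := Finset.mem_range.1 hi; omega) le_rfl) (((sm_lin _ w).mul (s1 i)).add (s2 i))
      refine (h3.congr ?_).le (le_of_eq ?_)
      · have h4 := ev_sum (s := Finset.range (K + 1)) fun i =>
          it_add (e := b β) i ((sm_lin (co b γ) w).mul (s1 i)) (s2 i)
        filter_upwards [h4, ev_sum (s := Finset.range (K + 1)) fun i =>
          it_mul₀ (e := b β) _ w (co_ne hβ) i (s1 i)] with y a c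
        rw [Finset.sum_sub_distrib, a, Finset.sum_add_distrib, c, ← Finset.mul_sum]
        simp only [DS, cf_mul]
      · rw [Finset.sum_mul, Finset.sum_mul]
        exact Finset.sum_congr rfl fun i _ => by ring

end Vale.Agent.P207Z.Evo
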