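import Vale.Agent.P207Z.Char.Evo.A
import Vale.Agent.P207Z.An.LK

/-!
# P207: the scalar functional is small on the functions which vanish at the fixed point
-/

set_option linter.all false

open Set Filter Topology Metric
open scoped ContDiff

noncomputable section

namespace Vale.Agent.P207Z.Evo

open Lift

variable {E V G : Type} [NormedAddCommGroup E] [NormedSpace ℝ E] [NormedAddCommGroup V]
  [NormedSpace ℝ V] [NormedAddCommGroup G] [NormedSpace ℝ G]

theorem pb_poly (k j : ℕ) : ∃ C : ℝ, 0 ≤ C ∧ ∀ (a : Jet k V G) (c q : V), ‖q - c‖ ≤ 1 →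
    Pb j (fun u => poly a (u - c)) q (C * ‖a‖) := by
  choose C hC h using fun i => poly_bound (V := V) (W := G) k i
  refine ⟨∑ i ∈ Finset.range (j + 1), C i, Finset.sum_nonneg fun i _ => hC i, fun a c q hq =>
    ⟨(contDiff_poly a).contDiffAt.comp q (contDiffAt_id.sub contDiffAt_const), fun i hi => ?_⟩⟩
  rw [iteratedFDeriv_comp_sub]
  exact (h i a _ (mem_closedBall_zero_iff.2 hq)).trans (mul_le_mul_of_nonneg_right
    (Finset.single_le_sum (fun i _ => hC i) (Finset.mem_range.2 (by omega))) (norm_nonneg _))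

/-- the Taylor polynomial, divided by the variable -/
theorem poly_div (R : ℕ) (F : V → G) (c : V) : ∃ a : Jet R V (V →L[ℝ] G),
    (∀ A, 0 ≤ A → (∀ i ≤ R + 1, ‖iteratedFDeriv ℝ i F c‖ ≤ A) → ‖a‖ ≤ A) ∧
      ∀ h, poly (jet (R + 1) F c) h = F c + poly a h h := by
  refine ⟨fun i => (((i : ℕ) : ℝ) + 1)⁻¹ • iteratedFDeriv ℝ i (fderiv ℝ F) c,
    fun A hA hb => (pi_norm_le_iff_of_nonneg hA).2 fun i => ?_, fun h => ?_⟩
  · rw [norm_smul, norm_iteratedFDeriv_fderiv, Real.norm_of_nonneg (by positivity)]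
    exact (mul_le_of_le_one_left (norm_nonneg _) (inv_le_one_of_one_le₀ (by simp))).trans
      (hb _ (by omega))
  · rw [poly, poly, Fin.sum_univ_succ, ContinuousLinearMap.sum_apply]
    refine congrArg₂ _ ((congrArg (· • _) (by simp)).trans (one_smul ℝ (F c))) (Finset.sum_congr rfl fun i _ => ?_)
    change ((((i : ℕ) + 1).factorial : ℝ))⁻¹ • iteratedFDeriv ℝ (i + 1) F c (fun _ => h) = _
    rw [iteratedFDeriv_succ_apply_right]
    simp only [ContinuousLinearMap.smul_apply, ContinuousMultilinearMap.smul_apply, smul_smul,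
      Nat.factorial_succ]
    push_cast
    rw [mul_inv, mul_comm]
    rfl

variable [FiniteDimensional ℝ E] {m : ℕ}

theorem DS_ideal (b : Module.Basis (Fin m) ℝ E) (K : ℕ) : ∃ C : ℝ, 0 ≤ C ∧
    ∀ (φ : E → E) (M : E → E →L[ℝ] ℝ) (w : E) (η A : ℝ), η ≤ 1 → Pb (m * K) φ w η →
      Pb (m * K) M w A → |DS b φ (K + 1) (List.finRange m) (fun y => M y (y - w - φ y)) w|
        ≤ C * η ^ (K + 1) * A := by
  choose C hC h using fun γ => pb_key b K (m * K) γ _ (List.nodup_finRange m)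
    (List.mem_finRange γ) 0 (by simp)
  refine ⟨∑ γ, C γ * ‖ContinuousLinearMap.apply ℝ ℝ (b γ)‖,
    Finset.sum_nonneg fun γ _ => mul_nonneg (hC γ) (by positivity), fun φ M w η A hη h1 h2 => ?_⟩
  have h3 := fun γ => h2.clm (ContinuousLinearMap.apply ℝ ℝ (b γ))
  have s1 := fun γ => (sm_lin (co b γ) w).mul (h3 γ).sm
  have s2 := fun γ => (contDiffAt_const (c := (-1 : ℝ))).mul ((sm_clm (co b γ) h1.sm).mul (h3 γ).sm)
  have e : (fun y => M y (y - w - φ y)) = fun y => ∑ γ, (co b γ (y - w) *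
      ContinuousLinearMap.apply ℝ ℝ (b γ) (M y) + -1 * (co b γ (φ y) *
        ContinuousLinearMap.apply ℝ ℝ (b γ) (M y))) := funext fun y => by
    conv_lhs => rw [← b.sum_repr (y - w - φ y), map_sum]
    refine Finset.sum_congr rfl fun γ _ => ?_
    rw [map_smul, ← co_apply, map_sub, smul_eq_mul, ContinuousLinearMap.apply_apply]
    ring
  rw [e, DS_sum h1.sm _ _ fun γ => (s1 γ).add (s2 γ), Finset.sum_mul, Finset.sum_mul]
  refine (Finset.abs_sum_le_sum_abs _ _).trans (Finset.sum_le_sum fun γ _ => ?_)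
  have h4 := (h γ φ _ w w η _ hη h1 (h3 γ)).norm_le
  rw [(DS_add h1.sm _ (s1 γ) (s2 γ)).self_of_nhds, DS_smul]
  simp only [sub_self, map_zero, zero_mul, zero_add, Real.norm_eq_abs] at h4
  calc _ = _ := congrArg abs (by ring)
    _ ≤ _ := h4
    _ = _ := by ring

theorem DS_fix (b : Module.Basis (Fin m) ℝ E) (K : ℕ) : ∀ n ≤ K + 1, ∃ C : ℝ, 0 ≤ C ∧
    ∀ (φ : E → E) (F : E → ℝ) (w y : E) (r η A : ℝ), r ≤ 1 → w ∈ ball y r → η ≤ 1 →
      y - w = φ y → F y = 0 → (∀ u ∈ ball y r, Pb (m * K + K + 2) φ u η) →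
      (∀ u ∈ ball y r, Pb (m * K + K + 2) F u A) →
      |DS b φ (K + 1) (List.finRange m) F w| ≤ C * η ^ n * A := by
  obtain ⟨C₀, hC₀, h₀⟩ := pb_DS b K (m * K) (List.finRange m) 0 (by simp)
  intro n
  induction n with
  | zero =>
    refine fun _ => ⟨C₀, hC₀, fun φ F w y r η A _ hw hη _ _ h1 h2 => ?_⟩
    simpa using (h₀ φ F w A ((h1 w hw).mono (by omega) hη) ((h2 w hw).mono (by omega) le_rfl)).norm_le
  | succ n ih =>
    intro hn
    obtain ⟨C, hC, h⟩ := ih (by omega)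
    obtain ⟨C₁, hC₁, h₁⟩ := DS_ideal b K
    obtain ⟨C₂, hC₂, h₂⟩ := pb_poly (V := E) (G := E →L[ℝ] ℝ) (m * K + K) (m * K + K + 2)
    refine ⟨C₀ + C₁ * C₂ + C * (2 ^ (m * K + K + 2) * (C₂ * 2)), by positivity,
      fun φ F w y r η A hr hw hη hy hF h1 h2 => ?_⟩
    have hy0 : y ∈ ball y r := mem_ball_self (pos_of_mem_ball hw)
    have hA := (h2 y hy0).nonneg
    have hη0 := (h1 y hy0).nonneg
    obtain ⟨a, ha, e⟩ := poly_div (m * K + K) F y
    have hM : ∀ u ∈ ball y r, Pb (m * K + K + 2) (fun u => poly a (u - y)) u (C₂ * A) :=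
      fun u hu => (h₂ a y u ((mem_ball_iff_norm.1 hu).le.trans hr)).le (mul_le_mul_of_nonneg_left
        (ha A hA fun i hi => (h2 y hy0).bd i (by omega)) hC₂)
    have hp : ∀ u, ContDiffAt ℝ ∞ (fun u => poly (jet (m * K + K + 1) F y) (u - y)) u := fun u =>
      (contDiff_poly _).contDiffAt.comp u (contDiffAt_id.sub contDiffAt_const)
    have hwy : ‖w - y‖ ≤ η := by
      rw [norm_sub_rev, hy]
      exact (h1 y hy0).norm_le
    have hR : Pb (m * K) (fun u => F u - poly (jet (m * K + K + 1) F y) (u - y)) w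
        (A * η ^ (n + 1)) := ⟨(h2 w hw).sm.sub (hp w), fun i hi => by
      refine (deriv_bound_of_jet (C := A) (fun u hu => (cda ((h2 u hu).sm.sub (hp u))
        _).contDiffWithinAt) (JetBx.rem (cda (h2 y hy0).sm _)) (fun u hu => ?_) (by omega)
          hw).trans (mul_le_mul_of_nonneg_left ((pow_le_pow_left₀ (norm_nonneg _) hwy _).trans
            (pow_le_pow_of_le_one hη0 hη (by omega))) hA)
      rw [fun_iteratedFDeriv_sub_apply (cda (h2 u hu).sm _) (cda (hp u) _),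
        iteratedFDeriv_comp_sub, iteratedFDeriv_poly_of_lt _ (Nat.lt_succ_self _), sub_zero]
      exact (h2 u hu).bd _ le_rfl⟩
    have hF' : ∀ u ∈ ball y r, Pb (m * K + K + 2) (fun u => poly a (u - y) (φ u - φ y)) u _ :=
      fun u hu => (hM u hu).app ((h1 u hu).sub (pb_const _ (h1 y hy0).norm_le))
    have b1 := (h₀ φ _ w _ ((h1 w hw).mono (by omega) hη) hR).norm_le
    have b2 := h₁ φ _ w η _ hη ((h1 w hw).mono (by omega) le_rfl) ((hM w hw).mono (by omega) le_rfl)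
    have b3 := h φ _ w y r η _ hr hw hη hy (by simp) h1 hF'
    have s2 : ContDiffAt ℝ ∞ (fun u => poly a (u - y) (u - w - φ u)) w :=
      (hM w hw).sm.clm_apply ((contDiffAt_id.sub contDiffAt_const).sub (h1 w hw).sm)
    have e2 : F = fun u => (F u - poly (jet (m * K + K + 1) F y) (u - y))
        + (poly a (u - y) (u - w - φ u) + poly a (u - y) (φ u - φ y)) := funext fun u => by
      rw [e, hF, ← map_add, ← hy, zero_add, show u - w - φ u + (φ u - (y - w)) = u - y by abel,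
        sub_add_cancel]
    have b4 : η ^ (K + 1) ≤ η ^ (n + 1) := pow_le_pow_of_le_one hη0 hη hn
    have b5 := mul_le_mul_of_nonneg_left b4 (by positivity : 0 ≤ C₁ * C₂ * A)
    rw [e2, (DS_add (h1 w hw).sm _ hR.sm (s2.add (hF' w hw).sm)).self_of_nhds]
    dsimp only
    rw [(DS_add (h1 w hw).sm _ s2 (hF' w hw).sm).self_of_nhds]
    refine (abs_add_le _ _).trans ((add_le_add b1 ((abs_add_le _ _).trans
      (add_le_add b2 b3))).trans ?_)
    rw [pow_succ η n] at b5 ⊢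
    nlinarith

theorem exists_fix {φ : E → E} {w : E} {s η : ℝ} (hs : η ≤ s) (hη : η ≤ 1 / 2) (h0 : 0 ≤ s)
    (h : ∀ u ∈ closedBall w s, Pb 1 φ u η) : ∃ y ∈ closedBall w s, y - w = φ y := by
  have hm : MapsTo (fun u => w + φ u) (closedBall w s) (closedBall w s) := fun u hu => by
    rw [mem_closedBall_iff_norm, add_sub_cancel_left]
    exact (h u hu).norm_le.trans hs
  have hc : ContractingWith (1 / 2) (hm.restrict _ _ _) :=
    ⟨by norm_num, LipschitzWith.of_dist_le_mul fun u v => by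
      have h1 := (convex_closedBall w s).norm_image_sub_le_of_norm_fderiv_le (𝕜 := ℝ)
        (fun u hu => (h u hu).sm.differentiableAt (by simp))
        (fun u hu => (Pb.fderiv (j := 0) (h u hu)).norm_le.trans hη) v.2 u.2
      rw [Subtype.dist_eq, Subtype.dist_eq, dist_eq_norm, dist_eq_norm]
      simpa using h1⟩
  have := FiniteDimensional.complete ℝ E
  obtain ⟨y, hy, h1, -⟩ := hc.exists_fixedPoint' isClosed_closedBall.isComplete hm
    (mem_closedBall_self h0) (edist_ne_top _ _)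
  exact ⟨y, hy, sub_eq_iff_eq_add'.2 h1.symm⟩

/-- interpolation -/
theorem pb_lk (N : ℕ) (hN : N ≠ 0) : ∃ C : ℝ, 0 ≤ C ∧ ∀ (f : E → G) (x : E) (r ε A : ℝ), 0 ≤ r →
    r ≤ 1 → 0 < ε → ε ≤ r ^ N → (∀ y ∈ closedBall x r, ‖f y‖ ≤ A * ε ^ 2 ∧ Pb (2 * N) f y A) →
      Pb N f x (C * A * ε) := by
  obtain ⟨C, hC, h⟩ := An.lk_ball.{0} (2 * N)
  refine ⟨2 * C, by positivity, fun f x r ε A h0 hr hε hεr hf => ?_⟩
  obtain ⟨s, hs, e⟩ : ∃ s : ℝ, 0 < s ∧ s ^ N = ε :=
    ⟨ε ^ (N : ℝ)⁻¹, Real.rpow_pos_of_pos hε _, Real.rpow_inv_natCast_pow hε.le hN⟩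
  have hsr : s ≤ r := (pow_le_pow_iff_left₀ hs.le h0 hN).1 (e ▸ hεr)
  have hb := closedBall_subset_closedBall (x := x) hsr
  have hA := (hf x (mem_closedBall_self h0)).2.nonneg
  refine ⟨(hf x (mem_closedBall_self h0)).2.sm, fun j hj => ?_⟩
  have h1 := h f x s _ A hs (fun y hy => cda (hf y (hb hy)).2.sm _) (fun y hy => (hf y (hb hy)).1)
    (fun y hy => (hf y (hb hy)).2.bd _ le_rfl) j (by omega)
  rw [pow_mul', e] at h1
  have h2 : ε ≤ s ^ j := e ▸ pow_le_pow_of_le_one hs.le (hsr.trans hr) hj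
  refine le_of_mul_le_mul_right ((mul_le_mul_of_nonneg_left h2 (norm_nonneg _)).trans
    (h1.trans_eq (by ring))) hε

theorem sm_iter {g : E → V → G} (hg : ContDiff ℝ ∞ fun p : E × V => g p.1 p.2) (i : ℕ) :
    ContDiff ℝ ∞ fun p : E × V => iteratedFDeriv ℝ i (g p.1) p.2 := by
  induction i with
  | zero =>
    simp only [iteratedFDeriv_zero_eq_comp]
    exact (continuousMultilinearCurryFin0 ℝ V G).symm.contDiff.comp hg
  | succ i ih =>
    simp only [iteratedFDeriv_succ_eq_comp_left]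
    exact (continuousMultilinearCurryLeftEquiv ℝ (fun _ : Fin (i + 1) => V) G).symm.contDiff.comp
      (ContDiff.fderiv (f := fun (p : E × V) v => iteratedFDeriv ℝ i (g p.1) v) (m := ∞) (n := ∞)
        (ih.comp (contDiff_fst.fst.prodMk contDiff_snd)) contDiff_snd le_rfl)

variable [FiniteDimensional ℝ V]

theorem pb_fam {Θ : E × V → G} (hΘ : ContDiff ℝ ∞ Θ) (w : E) (ρ : ℝ) (j : ℕ) : ∃ A : ℝ, 0 ≤ A ∧
    ∀ (δ : E → V), ∀ u ∈ closedBall w ρ, Pb j δ u 1 → Pb j (fun u => Θ (u, δ u)) u A := by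
  have := FiniteDimensional.proper_real E
  have := FiniteDimensional.proper_real V
  obtain ⟨M, h0, hM⟩ := Sys.exists_bound_le
    ((isCompact_closedBall w ρ).prod (isCompact_closedBall (0 : V) 1))
    (fun i => (hΘ.continuous_iteratedFDeriv (nat_le_inf i)).continuousOn) j
  refine ⟨j.factorial * M * max 1 (max 1 (‖w‖ + ρ) + 1) ^ j, by positivity, fun δ u hu h => ?_⟩
  have h1 : Pb j (fun u : E => u) u (max 1 (‖w‖ + ρ)) :=
    (pb_clm (ContinuousLinearMap.id ℝ E) u j).le ((mul_le_of_le_one_left (by positivity)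
      ContinuousLinearMap.norm_id_le).trans (max_le_max_left _ (norm_le_of_mem_closedBall hu)))
  exact Pb.comp' (f := fun u => (u, δ u))
    ⟨hΘ.contDiffAt, hM _ ⟨hu, mem_closedBall_zero_iff.2 h.norm_le⟩⟩ (h1.prod h)

/-- the remainder of the Taylor formula along a curve which is close to the axis -/
theorem pb_rem (iS : E →L[ℝ] V) {g : E → V → G} (hg : ContDiff ℝ ∞ fun p : E × V => g p.1 p.2)
    (w : E) {ρ : ℝ} (hρ : 0 < ρ) {N : ℕ} (hN : N ≠ 0) (k : ℕ) : ∃ C : ℝ, 0 ≤ C ∧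
      ∀ (z : E → V) (η : ℝ), 0 < η → η ≤ min (ρ / 4) 1 ^ N →
        (∀ u ∈ ball w ρ, Pb (2 * N) (fun u => z u - iS u) u (η ^ 2)) → ∀ x ∈ ball w (ρ / 2),
          Pb N (fun u => poly (jet k (g u) (iS u)) (z u - iS u) - g u (z u)) x (C * η ^ (k + 1)) := by
  have := FiniteDimensional.proper_real E
  have := FiniteDimensional.proper_real V
  have hs : ContDiff ℝ ∞ fun p : E × V => (p.1, iS p.1 + p.2) :=
    contDiff_fst.prodMk ((iS.contDiff.comp contDiff_fst).add contDiff_snd)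
  have hj : ContDiff ℝ ∞ fun u : E => jet k (g u) (iS u) :=
    contDiff_pi.2 fun i => (sm_iter hg i).comp (contDiff_id.prodMk iS.contDiff)
  obtain ⟨A, hA, h₁⟩ := pb_fam (Θ := fun p : E × V => poly (jet k (g p.1) (iS p.1)) p.2
    - g p.1 (iS p.1 + p.2)) ((contDiff_poly₂.comp ((hj.comp contDiff_fst).prodMk
      contDiff_snd)).sub (hg.comp hs)) w ρ (2 * N)
  obtain ⟨B, hB⟩ := ((isCompact_closedBall w ρ).prod
    (isCompact_closedBall (0 : V) 2)).exists_bound_of_continuousOn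
      ((sm_iter hg (k + 1)).comp hs).continuous.continuousOn
  obtain ⟨C, hC, h₂⟩ := pb_lk (E := E) (G := G) N hN
  refine ⟨C * max A B, by positivity, fun z η h0 hη hz x hx => ?_⟩
  have hr : 0 ≤ min (ρ / 4) 1 := by positivity
  have hη1 : η ≤ 1 := hη.trans (pow_le_one₀ hr (min_le_right _ _))
  have hη2 : η ^ 2 ≤ 1 := pow_le_one₀ h0.le hη1
  refine h₂ _ x _ _ _ hr (min_le_right _ _) (by positivity)
    ((pow_le_of_le_one h0.le hη1 (by omega)).trans hη) fun y hy => ?_
  have hy' : y ∈ ball w ρ := by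
    have := min_le_left (ρ / 4) 1
    rw [mem_ball] at hx ⊢
    linarith [dist_triangle y x w, mem_closedBall.1 hy]
  have h3 := h₁ _ y (ball_subset_closedBall hy') ((hz y hy').le hη2)
  simp only [add_sub_cancel] at h3
  refine ⟨?_, h3.le (le_max_left _ _)⟩
  have h4 : ‖z y - iS y‖ ≤ η ^ 2 := (hz y hy').norm_le
  have h5 := taylor_bound (k := k) (f := g y) (z := iS y) (ρ := 2) (C := max A B) (q := z y)
    ((hg.comp (contDiff_const.prodMk contDiff_id)).of_le (nat_le_inf _)).contDiffOn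
    (fun q hq => by
      have := hB (y, q - iS y) ⟨ball_subset_closedBall hy',
        mem_closedBall_zero_iff.2 (mem_ball_iff_norm.1 hq).le⟩
      simp only [Function.comp_apply, add_sub_cancel] at this
      exact this.trans (le_max_right _ _))
    (mem_ball_iff_norm.2 (by linarith))
  rw [norm_sub_rev, ← pow_mul, pow_mul']
  exact h5.trans (mul_le_mul_of_nonneg_left (pow_le_pow_left₀ (norm_nonneg _) h4 _) (by positivity))

end Vale.Agent.P207Z.Evo
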